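import Vale.Agent.P090.LInfty

/-!
# P090: `F(M)` for uniformly discrete coarse-Lipschitz retracts

A uniformly discrete metric space `M` which is a coarse-Lipschitz retract of a normed space with the
BAP (or merely the coarse BAP), in particular of some `ℓ_∞(Γ)`, has `F(M)` with the BAP.
-/

namespace Vale.Agent.Results.P090.CoarseRetract

open Vale.Agent.P090

/-- Let `M` be uniformly discrete with base point `o`. If `M` is a coarse-Lipschitz retract of a real
normed space with the BAP or the coarse BAP, then `F(M)` has the BAP. This applies to every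
coarse-Lipschitz retract of a space `ℓ_∞(Γ)`. -/
theorem result.{u, v, w} {M : Type u} [MetricSpace M] {θ : ℝ} (o : M) (hθ : 0 < θ)
    (hsep : ∀ x y : M, x ≠ y → θ ≤ dist x y) :
    (∀ (X : Type v) [NormedAddCommGroup X] [NormedSpace ℝ X] (e : M → X) (p : X → M) (K : ℝ),
      IsCoarseRetract e p K → (HasBAP X ∨ CoarseBAP X) → HasBAP (FreeSpace o)) ∧
    (∀ (Γ : Type w) (e : M → lp (fun _ : Γ => ℝ) ⊤) (p : lp (fun _ : Γ => ℝ) ⊤ → M) (K : ℝ),
      IsCoarseRetract e p K → HasBAP (FreeSpace o)) :=
  ⟨fun _ _ _ _ _ _ hr h =>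
      bap_free_of_coarse_retract o hθ hsep hr (h.elim coarse_of_bap id),
    fun Γ _ _ _ hr =>
      bap_free_of_coarse_retract o hθ hsep hr (coarse_of_bap (hasBAP_lp_top Γ))⟩

end Vale.Agent.Results.P090.CoarseRetract
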