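import Vale.Agent.P090.Free

/-!
# P090: bounded approximation in `F(N)` for nets `N` of Banach spaces

For a net `N` of a real Banach space `X` (a uniformly separated, relatively dense subset), the
Lipschitz-free space `F(N)` has the BAP if and only if `X` has the coarse bounded approximation
property `CoarseBAP X`.  In particular `F(N)` has the BAP whenever `X` has the BAP.
-/

namespace Vale.Agent.Results.P090.NetCoarseBAP

open Vale.Agent.P090

/-- Let `N` be a net of a real Banach space `X` and `o ∈ N`. Then `F(N)` has the BAP if and only if
`X` has the coarse bounded approximation property, and the BAP of `X` implies the BAP of `F(N)`. -/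
theorem result {X : Type*} [NormedAddCommGroup X] [NormedSpace ℝ X] [CompleteSpace X]
    {N : Set X} (hN : IsNet N) (o : N) :
    (HasBAP (FreeSpace o) ↔ CoarseBAP X) ∧ (HasBAP X → HasBAP (FreeSpace o)) :=
  main hN o

end Vale.Agent.Results.P090.NetCoarseBAP
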